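import Mathlib.Topology.MetricSpace.Pseudo.Basic
import Mathlib.Tactic

/-!
# P214, general rate: the finite ladder lemma

A finite set in a (pseudo) metric space and a sequence of radii which at least doubles: at one of
the first `2 card` rungs some subset covers with radius `d r` and is separated by more than
`d (r + 1)`.
-/

namespace Vale.Agent.P214.LAD

variable {X : Type*} [PseudoMetricSpace X]

/-- monotonicity of the rungs -/
lemma rung_mono {d : ℕ → ℝ} (hd0 : 0 ≤ d 0) (h2 : ∀ r, 2 * d r ≤ d (r + 1)) :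
    (∀ r, 0 ≤ d r) ∧ Monotone d := by
  have h0 : ∀ r, 0 ≤ d r := by
    intro r
    induction r with
    | zero => exact hd0
    | succ r ih => linarith [h2 r]
  exact ⟨h0, monotone_nat_of_le_succ fun r => by linarith [h2 r, h0 r]⟩

lemma ladder_aux [DecidableEq X] {S : Finset X} {d : ℕ → ℝ} (hd0 : 0 ≤ d 0)
    (h2 : ∀ r, 2 * d r ≤ d (r + 1)) :
    ∀ n : ℕ, ∀ S₀ ⊆ S, S₀.card = n → ∀ r, (∀ a ∈ S, ∃ b ∈ S₀, dist a b ≤ d r) →
      ∃ r', r ≤ r' ∧ r' ≤ r + 2 * n ∧ ∃ S₁ ⊆ S₀, (∀ a ∈ S, ∃ b ∈ S₁, dist a b ≤ d r') ∧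
        ∀ a ∈ S₁, ∀ b ∈ S₁, a ≠ b → d (r' + 1) < dist a b := by
  obtain ⟨h0, hm⟩ := rung_mono hd0 h2
  intro n
  induction n with
  | zero =>
    intro S₀ hS hc r hcov
    refine ⟨r, le_rfl, by omega, S₀, subset_rfl, hcov, ?_⟩
    rw [Finset.card_eq_zero] at hc
    subst hc
    simp
  | succ n ih =>
    intro S₀ hS hc r hcov
    by_cases hsep : ∀ a ∈ S₀, ∀ b ∈ S₀, a ≠ b → d (r + 1) < dist a b
    · exact ⟨r, le_rfl, by omega, S₀, subset_rfl, hcov, hsep⟩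
    · push Not at hsep
      obtain ⟨a, ha, b, hb, hab, hle⟩ := hsep
      have hcard : (S₀.erase a).card = n := by rw [Finset.card_erase_of_mem ha, hc]; rfl
      obtain ⟨r', h1, h3, S₁, hS₁, hcov₁, hsep₁⟩ := ih (S₀.erase a)
        ((Finset.erase_subset a S₀).trans hS) hcard (r + 2) (by
          intro x hx
          obtain ⟨c, hc, hxc⟩ := hcov x hx
          by_cases hca : c = a
          · subst hca
            refine ⟨b, Finset.mem_erase.2 ⟨hab.symm, hb⟩, ?_⟩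
            have e1 : d r ≤ d (r + 1) := hm (by omega)
            have e2 : 2 * d (r + 1) ≤ d (r + 2) := h2 (r + 1)
            linarith [dist_triangle x c b]
          · exact ⟨c, Finset.mem_erase.2 ⟨hca, hc⟩, hxc.trans (hm (by omega))⟩)
      exact ⟨r', by omega, by omega, S₁, hS₁.trans (Finset.erase_subset a S₀), hcov₁, hsep₁⟩

/-- **Finite ladder.** -/
theorem ladder (S : Finset X) {d : ℕ → ℝ} (hd0 : 0 ≤ d 0) (h2 : ∀ r, 2 * d r ≤ d (r + 1)) :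
    ∃ r ≤ 2 * S.card, ∃ S₀ ⊆ S, (∀ a ∈ S, ∃ b ∈ S₀, dist a b ≤ d r) ∧
      ∀ a ∈ S₀, ∀ b ∈ S₀, a ≠ b → d (r + 1) < dist a b := by
  classical
  obtain ⟨r, -, h3, S₁, hS₁, hcov, hsep⟩ := ladder_aux (S := S) hd0 h2 S.card S subset_rfl rfl 0
    (fun a ha => ⟨a, ha, by rw [dist_self]; exact hd0⟩)
  exact ⟨r, by omega, S₁, hS₁, hcov, hsep⟩

/-- the same from the rung `r₀` on -/
theorem ladder_from (S : Finset X) {d : ℕ → ℝ} (hd0 : 0 ≤ d 0) (h2 : ∀ r, 2 * d r ≤ d (r + 1))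
    (r₀ : ℕ) :
    ∃ r, r₀ ≤ r ∧ r ≤ r₀ + 2 * S.card ∧ ∃ S₀ ⊆ S, (∀ a ∈ S, ∃ b ∈ S₀, dist a b ≤ d r) ∧
      ∀ a ∈ S₀, ∀ b ∈ S₀, a ≠ b → d (r + 1) < dist a b := by
  classical
  obtain ⟨r, h1, h3, S₁, hS₁, hcov, hsep⟩ := ladder_aux (S := S) hd0 h2 S.card S subset_rfl rfl r₀
    (fun a ha => ⟨a, ha, by rw [dist_self]; exact (rung_mono hd0 h2).1 r₀⟩)
  exact ⟨r, h1, h3, S₁, hS₁, hcov, hsep⟩

end Vale.Agent.P214.LAD
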